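import Mathlib

/-!
# P062, second formulation: the Snaky achievement game as a sequence of claims

The board is the integer lattice `Fin 2 → ℤ`.  A play is the sequence of all claims
`x 0, x 1, x 2, …` of both players: Maker makes the claims with even number (he moves first) and
Breaker the claims with odd number.
-/

namespace Vale.Agent.P062.Second

/-- A cell of the square grid, given by its lower-left corner. -/
abbrev Sq : Type := Fin 2 → ℤ

/-- The hexomino Snaky. -/
def hexomino : Set Sq := {![0, 0], ![1, 0], ![2, 0], ![3, 0], ![3, 1], ![4, 1]}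

/-- `R` is a `2 × 2` signed permutation matrix: row `i` has the entry `ε i = 1` or `-1` in
column `π i` and is zero elsewhere, for some permutation `π`. -/
def IsSignedPermutation (R : Matrix (Fin 2) (Fin 2) ℤ) : Prop :=
  ∃ (π : Equiv.Perm (Fin 2)) (ε : Fin 2 → ℤ), (∀ i, ε i = 1 ∨ ε i = -1) ∧
    ∀ i j, R i j = if π i = j then ε i else 0

/-- An allowed copy of Snaky: a set `t + R(S)`. -/
def AllowedCopy (C : Set Sq) : Prop :=
  ∃ (t : Sq) (R : Matrix (Fin 2) (Fin 2) ℤ), IsSignedPermutation R ∧
    C = (fun s : Sq => t + R.mulVec s) '' hexomino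

/-- The play `x` is legal: every claim is a cell which was not claimed before. -/
def LegalPlay (x : ℕ → Sq) : Prop := ∀ n, ∀ i < n, x n ≠ x i

/-- The list of the first `n` claims of the play `x`. -/
def firstClaims (x : ℕ → Sq) (n : ℕ) : List Sq := (List.range n).map x

/-- A strategy (of either player) answers every finite list of previous claims by a cell; it is
legal if this is a cell not claimed before. -/
def LegalStrategy (σ : List Sq → Sq) : Prop := ∀ h : List Sq, σ h ∉ h

/-- Maker, who makes the claims `x 0, x 2, x 4, …`, plays according to `σ`. -/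
def MakerPlays (σ : List Sq → Sq) (x : ℕ → Sq) : Prop :=
  ∀ n, x (2 * n) = σ (firstClaims x (2 * n))

/-- Breaker, who makes the claims `x 1, x 3, x 5, …`, plays according to `τ`. -/
def BreakerPlays (τ : List Sq → Sq) (x : ℕ → Sq) : Prop :=
  ∀ n, x (2 * n + 1) = τ (firstClaims x (2 * n + 1))

/-- After his first `N` claims `x 0, x 2, …, x (2 N - 2)` Maker owns every cell of some allowed
copy of Snaky. -/
def MakerOwnsCopyAfter (x : ℕ → Sq) (N : ℕ) : Prop :=
  ∃ C : Set Sq, AllowedCopy C ∧ ∀ c ∈ C, ∃ i < N, x (2 * i) = c

end Vale.Agent.P062.Second
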