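import Vale.Agent.Lib.P062.Game
import Vale.Agent.Lib.P062.Second.Defs

/-!
# P062, second formulation: from bounded wins of positions to plays as sequences of claims
-/

namespace Vale.Agent.P062.Second

open Vale.Agent.P062

/-- the cell of the first formulation -/
def toCell (s : Sq) : Cell := (s 0, s 1)

def ofCell (c : Cell) : Sq := ![c.1, c.2]

theorem toCell_ofCell (c : Cell) : toCell (ofCell c) = c := by
  simp [toCell, ofCell]

theorem ofCell_toCell (s : Sq) : ofCell (toCell s) = s := by
  funext i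
  fin_cases i <;> simp [toCell, ofCell]

theorem toCell_inj {s s' : Sq} (h : toCell s = toCell s') : s = s' := by
  rw [← ofCell_toCell s, h, ofCell_toCell]

theorem ofCell_inj {s s' : Cell} (h : ofCell s = ofCell s') : s = s' := by
  rw [← toCell_ofCell s, h, toCell_ofCell]

/-! ### allowed copies -/

theorem signed_of_mem {R : Matrix (Fin 2) (Fin 2) ℤ} (hR : R ∈ signedPermutationMatrices) :
    IsSignedPermutation R := by
  simp only [signedPermutationMatrices, Finset.mem_insert, Finset.mem_singleton] at hR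
  rcases hR with rfl | rfl | rfl | rfl | rfl | rfl | rfl | rfl
  · exact ⟨Equiv.refl _, ![1, 1], by decide,
      by intro i j; fin_cases i <;> fin_cases j <;> rfl⟩
  · exact ⟨Equiv.refl _, ![1, -1], by decide,
      by intro i j; fin_cases i <;> fin_cases j <;> rfl⟩
  · exact ⟨Equiv.refl _, ![-1, 1], by decide,
      by intro i j; fin_cases i <;> fin_cases j <;> rfl⟩
  · exact ⟨Equiv.refl _, ![-1, -1], by decide,
      by intro i j; fin_cases i <;> fin_cases j <;> rfl⟩
  · exact ⟨Equiv.swap 0 1, ![1, 1], by decide,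
      by intro i j; fin_cases i <;> fin_cases j <;> rfl⟩
  · exact ⟨Equiv.swap 0 1, ![1, -1], by decide,
      by intro i j; fin_cases i <;> fin_cases j <;> rfl⟩
  · exact ⟨Equiv.swap 0 1, ![-1, 1], by decide,
      by intro i j; fin_cases i <;> fin_cases j <;> rfl⟩
  · exact ⟨Equiv.swap 0 1, ![-1, -1], by decide,
      by intro i j; fin_cases i <;> fin_cases j <;> rfl⟩

theorem ofCell_act (R : Matrix (Fin 2) (Fin 2) ℤ) (t p : Cell) :
    ofCell (t + act R p) = ofCell t + R.mulVec (ofCell p) := by
  funext i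
  fin_cases i <;>
    simp [ofCell, act]

theorem copy_of {C : Finset Cell} (h : IsAllowedCopy C) :
    AllowedCopy (ofCell '' (C : Set Cell)) := by
  obtain ⟨t, R, hR, rfl⟩ := h
  refine ⟨ofCell t, R, signed_of_mem hR, ?_⟩
  rw [Finset.coe_image, Set.image_image]
  have h1 : hexomino = ofCell '' (snaky : Set Cell) := by
    simp only [snaky, hexomino, Finset.coe_insert, Finset.coe_singleton, Set.image_insert_eq,
      Set.image_singleton]
    rfl
  rw [h1, Set.image_image]
  refine Set.image_congr fun p _ => ?_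
  exact ofCell_act R t p

/-! ### the strategy -/

/-- the cells of Maker and of Breaker in a list of claims -/
def mk (h : List Sq) : Set Cell := {c | ∃ i, h[2 * i]? = some (ofCell c)}

def bk (h : List Sq) : Set Cell := {c | ∃ i, h[2 * i + 1]? = some (ofCell c)}

theorem mem_mk_or_bk {h : List Sq} {c : Cell} (hc : ofCell c ∈ h) : c ∈ mk h ∨ c ∈ bk h := by
  obtain ⟨n, hn⟩ := List.mem_iff_getElem?.1 hc
  obtain ⟨i, rfl | rfl⟩ := Nat.even_or_odd' n
  · exact Or.inl ⟨i, hn⟩
  · exact Or.inr ⟨i, hn⟩

theorem exists_fresh (h : List Sq) : ∃ s : Sq, s ∉ h := by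
  classical
  obtain ⟨s, hs⟩ := Infinite.exists_notMem_finset h.toFinset
  exact ⟨s, fun hm => hs (List.mem_toFinset.2 hm)⟩

open Classical in
/-- the strategy -/
noncomputable def sig (h : List Sq) : Sq :=
  if w : ∃ n, MWins n (mk h) (bk h) then ofCell (step_exists w).choose
  else (exists_fresh h).choose

theorem sig_legal : LegalStrategy sig := by
  classical
  intro h hmem
  unfold sig at hmem
  split_ifs at hmem with w
  · have h1 := (step_exists w).choose_spec
    rcases mem_mk_or_bk hmem with h2 | h2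
    · exact h1.1 h2
    · exact h1.2.1 h2
  · exact (exists_fresh h).choose_spec hmem

theorem mk_first (x : ℕ → Sq) (n : ℕ) :
    mk (firstClaims x (2 * n)) = {c | ∃ i < n, toCell (x (2 * i)) = c} := by
  ext c
  simp only [mk, firstClaims, Set.mem_ofPred_eq, List.getElem?_map, Option.map_eq_some_iff]
  constructor
  · rintro ⟨i, a, ha, hac⟩
    obtain ⟨h1, h2⟩ := List.getElem?_eq_some_iff.1 ha
    rw [List.length_range] at h1
    rw [List.getElem_range] at h2
    refine ⟨i, by omega, ?_⟩
    rw [h2, hac, toCell_ofCell]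
  · rintro ⟨i, hi, rfl⟩
    refine ⟨i, 2 * i, ?_, (ofCell_toCell _).symm⟩
    rw [List.getElem?_range (by omega)]

theorem bk_first (x : ℕ → Sq) (n : ℕ) :
    bk (firstClaims x (2 * n)) = {c | ∃ i < n, toCell (x (2 * i + 1)) = c} := by
  ext c
  simp only [bk, firstClaims, Set.mem_ofPred_eq, List.getElem?_map, Option.map_eq_some_iff]
  constructor
  · rintro ⟨i, a, ha, hac⟩
    obtain ⟨h1, h2⟩ := List.getElem?_eq_some_iff.1 ha
    rw [List.length_range] at h1
    rw [List.getElem_range] at h2
    refine ⟨i, by omega, ?_⟩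
    rw [h2, hac, toCell_ofCell]
  · rintro ⟨i, hi, rfl⟩
    refine ⟨i, 2 * i + 1, ?_, (ofCell_toCell _).symm⟩
    rw [List.getElem?_range (by omega)]

theorem insert_lt {f : ℕ → Cell} (n : ℕ) :
    {c | ∃ i < n + 1, f i = c} = insert (f n) {c | ∃ i < n, f i = c} := by
  ext c
  simp only [Set.mem_insert_iff, Set.mem_ofPred_eq]
  constructor
  · rintro ⟨i, hi, rfl⟩
    rcases Nat.lt_succ_iff_lt_or_eq.1 hi with h | rfl
    · exact Or.inr ⟨i, h, rfl⟩
    · exact Or.inl rfl
  · rintro (rfl | ⟨i, hi, rfl⟩)
    · exact ⟨n, Nat.lt_succ_self n, rfl⟩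
    · exact ⟨i, Nat.lt_succ_of_lt hi, rfl⟩

theorem after_mono {x : ℕ → Sq} {N N' : ℕ} (h : N ≤ N') (hw : MakerOwnsCopyAfter x N) :
    MakerOwnsCopyAfter x N' := by
  obtain ⟨C, hC, hs⟩ := hw
  refine ⟨C, hC, fun c hc => ?_⟩
  obtain ⟨i, hi, hx⟩ := hs c hc
  exact ⟨i, lt_of_lt_of_le hi h, hx⟩

theorem play_bound {x : ℕ → Sq} (hl : LegalPlay x) (hf : MakerPlays sig x) (N : ℕ) :
    ∀ n, MWins N (mk (firstClaims x (2 * n))) (bk (firstClaims x (2 * n))) →
      MakerOwnsCopyAfter x (n + N) := by
  classical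
  induction N using Nat.strong_induction_on with
  | _ N ih =>
    intro n hw
    have w : ∃ k, MWins k (mk (firstClaims x (2 * n))) (bk (firstClaims x (2 * n))) := ⟨N, hw⟩
    have hspec := (step_exists w).choose_spec
    have hm : x (2 * n) = ofCell (step_exists w).choose := by
      rw [hf n]
      unfold sig
      rw [dif_pos w]
    have hfind : Nat.find w ≤ N := Nat.find_le hw
    have hN : 1 ≤ N := by
      rcases Nat.eq_zero_or_pos N with h0 | h0
      · subst h0
        exact hw.elim
      · exact h0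
    have hm' : (step_exists w).choose = toCell (x (2 * n)) := by
      rw [hm, toCell_ofCell]
    rw [hm'] at hspec
    have h1 : insert (toCell (x (2 * n))) (mk (firstClaims x (2 * n))) =
        mk (firstClaims x (2 * (n + 1))) := by
      rw [mk_first, mk_first, insert_lt (f := fun i => toCell (x (2 * i)))]
    have h2 : insert (toCell (x (2 * n + 1))) (bk (firstClaims x (2 * n))) =
        bk (firstClaims x (2 * (n + 1))) := by
      rw [bk_first, bk_first, insert_lt (f := fun i => toCell (x (2 * i + 1)))]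
    rw [h1] at hspec
    obtain ⟨-, -, ⟨C, hC, hCs⟩ | ⟨k, hk, hrep⟩⟩ := hspec
    · refine after_mono (show n + 1 ≤ n + N by omega) ⟨_, copy_of hC, ?_⟩
      rintro _ ⟨c, hc, rfl⟩
      have h3 := hCs c hc
      rw [mk_first] at h3
      obtain ⟨i, hi, hx⟩ := h3
      refine ⟨i, hi, ?_⟩
      rw [← hx, ofCell_toCell]
    · have h4 := hrep (toCell (x (2 * n + 1))) ?_ ?_
      · rw [h2] at h4
        exact after_mono (by omega) (ih k (lt_of_lt_of_le hk hfind) (n + 1) h4)
      · rw [mk_first]
        rintro ⟨i, hi, hx⟩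
        exact hl (2 * n + 1) (2 * i) (by omega) (toCell_inj hx).symm
      · rw [bk_first]
        rintro ⟨i, hi, hx⟩
        exact hl (2 * n + 1) (2 * i + 1) (by omega) (toCell_inj hx).symm

theorem sig_wins {N : ℕ} (hN : MWins N ∅ ∅) {x : ℕ → Sq} (hl : LegalPlay x)
    (hf : MakerPlays sig x) : MakerOwnsCopyAfter x N := by
  have h := play_bound hl hf N 0 ?_
  · rwa [Nat.zero_add] at h
  · rw [mk_first, bk_first]
    simpa using hN

/-! ### the play of two strategies -/

open Classical in
/-- the list of the first `n` claims when Maker plays by `σ` and Breaker by `τ` -/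
noncomputable def duel (σ τ : List Sq → Sq) : ℕ → List Sq
  | 0 => []
  | n + 1 => duel σ τ n ++ [if Even n then σ (duel σ τ n) else τ (duel σ τ n)]

open Classical in
noncomputable def duelPlay (σ τ : List Sq → Sq) (n : ℕ) : Sq :=
  if Even n then σ (duel σ τ n) else τ (duel σ τ n)

theorem first_duel (σ τ : List Sq → Sq) (n : ℕ) : firstClaims (duelPlay σ τ) n = duel σ τ n := by
  induction n with
  | zero => simp [firstClaims, duel]
  | succ n ih =>
    have h1 : firstClaims (duelPlay σ τ) (n + 1) =
        firstClaims (duelPlay σ τ) n ++ [duelPlay σ τ n] := by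
      simp [firstClaims, List.range_succ, List.map_append]
    rw [h1, ih]
    rfl

theorem duel_legal {σ τ : List Sq → Sq} (hσ : LegalStrategy σ) (hτ : LegalStrategy τ) :
    LegalPlay (duelPlay σ τ) := by
  intro n i hi heq
  have h1 : duelPlay σ τ i ∈ firstClaims (duelPlay σ τ) n :=
    List.mem_map.2 ⟨i, List.mem_range.2 hi, rfl⟩
  rw [← heq, first_duel] at h1
  unfold duelPlay at h1
  split_ifs at h1
  · exact hσ _ h1
  · exact hτ _ h1

theorem duel_maker (σ τ : List Sq → Sq) : MakerPlays σ (duelPlay σ τ) := by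
  intro n
  rw [first_duel]
  unfold duelPlay
  rw [if_pos (even_two_mul n)]

theorem duel_breaker (σ τ : List Sq → Sq) : BreakerPlays τ (duelPlay σ τ) := by
  intro n
  rw [first_duel]
  unfold duelPlay
  rw [if_neg]
  rw [Nat.not_even_iff_odd]
  exact ⟨n, rfl⟩

end Vale.Agent.P062.Second
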