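import Vale.Agent.Lib.P062.Full.All

/-!
# P062, second formulation: a uniform bound for the number of Maker's claims
-/

namespace Vale.Agent.P062.Second

open Vale.Agent.P062

theorem table_uniform (g : ℕ → ℕ) (T : ℕ) (hT : ∀ k < T, ∃ N, BSit N (ex (g k)) (ey (g k))) :
    ∃ N, ∀ k < T, BSit N (ex (g k)) (ey (g k)) := by
  induction T with
  | zero => exact ⟨0, fun k hk => absurd hk (Nat.not_lt_zero k)⟩
  | succ T ih =>
    obtain ⟨N, hN⟩ := ih fun k hk => hT k (Nat.lt_succ_of_lt hk)
    obtain ⟨N', hN'⟩ := hT T (Nat.lt_succ_self T)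
    refine ⟨max N N', fun k hk => ?_⟩
    rcases Nat.lt_succ_iff_lt_or_eq.1 hk with h | rfl
    · exact (hN k h).mono (le_max_left _ _)
    · exact hN'.mono (le_max_right _ _)

theorem avoided_uniform (g : ℕ → ℕ) (T : ℕ) (roots : List (ℕ × ℕ)) (N : ℕ)
    (hT : ∀ k < T, BSit N (ex (g k)) (ey (g k))) (hr : rootsOk g T roots = true)
    (b : Cell) (h : avoided (rootZs g roots) b = true) :
    MWins (N + 1) {(0, 0)} {b} := by
  simp only [avoided, rootZs, List.any_eq_true, List.mem_map] at h
  obtain ⟨z, ⟨⟨k, m⟩, hk, rfl⟩, s, -, hs⟩ := h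
  rw [rootsOk, List.all_eq_true] at hr
  have h1 := hr _ hk
  simp only [Bool.and_eq_true] at h1 hs
  obtain ⟨⟨⟨⟨h2, h3⟩, h4⟩, h5⟩, h6⟩ := h1
  have hkT : k < T := Nat.le_of_ble_eq_true h2
  have hm : m < 256 := Nat.le_of_ble_eq_true h5
  have hN := hT k hkT
  have hy : ey (g k) < 2 ^ 256 := by
    rw [← W_eq]
    exact Nat.mod_lt _ (by norm_num [W])
  generalize ex (g k) = x' at h3 hN
  generalize ey (g k) = y' at h4 hN hs hy h6
  have hmy : y'.testBit m = false := by simpa using h4
  have hO : OSit (N + 1) (bit 119) (y' ||| bit m) :=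
    osit_quiet (fun i hi => sub_spec h3 i hi) hmy hN
  obtain ⟨R, hR, hRs⟩ := exists_sym s
  have hzlt : (y' ||| bit m) < 2 ^ 256 := by
    apply Nat.or_lt_two_pow hy
    have : bit m = 2 ^ m := by
      show 1 <<< m = 2 ^ m
      rw [Nat.one_shiftLeft]
    rw [this]
    exact Nat.pow_lt_pow_right (by norm_num) hm
  have hs' : inMask (y' ||| bit m) (symP s b) = false := by
    have : (!inMask (Nat.lor y' (bit m)) (symP s b)) = true := hs
    simpa using this
  have himg := not_image_of_not_inMask hRs hzlt hs'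
  have h119 : (y' ||| bit m).testBit 119 = false := by
    have : (!(Nat.testBit (Nat.lor y' (bit m)) 119)) = true := h6
    simpa using this
  refine hO (originFrame R) (originFrame_isFrame hR) {(0, 0)} {b} ?_ ?_
  · intro i hi
    rw [testBit_bit] at hi
    simp only [decide_eq_true_eq] at hi
    subst hi
    rw [originFrame_119]
    exact Set.mem_singleton _
  · intro i hi
    refine ⟨?_, ?_⟩
    · rw [Set.mem_singleton_iff]
      intro h0
      rw [← originFrame_119 R] at h0
      have := (originFrame_isFrame hR).injective h0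
      subst this
      rw [hi] at h119
      exact absurd h119 (by decide)
    · rw [Set.mem_singleton_iff]
      exact himg i hi

theorem cover_avoided (g : ℕ → ℕ) (roots : List (ℕ × ℕ)) (exc : List Cell)
    (hne : roots ≠ []) (hc : coverOk (rootZs g roots) exc = true)
    (b : Cell) (hb : b ≠ (0, 0)) (hexc : b ∉ exc) :
    avoided (rootZs g roots) b = true := by
  by_cases hfar : b.1 < -8 ∨ 8 < b.1 ∨ b.2 < -8 ∨ 8 < b.2
  · simp only [avoided, rootZs, List.any_eq_true, List.mem_map]
    obtain ⟨r, l, rfl⟩ := List.exists_cons_of_ne_nil hne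
    refine ⟨_, ⟨r, List.mem_cons_self, rfl⟩, 0, by simp, ?_⟩
    rw [inMask_far _ _ _ hfar]
    rfl
  · simp only [not_or, not_lt] at hfar
    obtain ⟨f1, f2, f3, f4⟩ := hfar
    rw [coverOk, List.all_eq_true] at hc
    have h1 := hc (b.1 + 8).toNat (by rw [List.mem_range]; omega)
    rw [List.all_eq_true] at h1
    have h2 := h1 (b.2 + 8).toNat (by rw [List.mem_range]; omega)
    have e1 : (((b.1 + 8).toNat : ℕ) : ℤ) - 8 = b.1 := by omega
    have e2 : (((b.2 + 8).toNat : ℕ) : ℤ) - 8 = b.2 := by omega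
    simp only [e1, e2] at h2
    simp only [Prod.mk.eta, Bool.or_eq_true, beq_iff_eq, List.contains_iff_mem] at h2
    rcases h2 with (h2 | h2) | h2
    · exact absurd h2 hb
    · exact absurd h2 hexc
    · exact h2

/-- Maker wins from the empty board with a bounded number of claims. -/
theorem exists_uniform : ∃ N, MWins N ∅ ∅ := by
  obtain ⟨N, hN⟩ := table_uniform Full.tget 19481 (table_sound Full.tget 19481 Full.table_ok)
  refine ⟨N + 1 + 1, (0, 0), Set.notMem_empty _, Set.notMem_empty _, Or.inr fun b hb _ => ?_⟩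
  have hb0 : b ≠ (0, 0) := by
    intro h
    exact hb (h ▸ Set.mem_insert _ _)
  have h1 := avoided_uniform Full.tget 19481 Full.roots N hN Full.roots_ok b
    (cover_avoided Full.tget Full.roots Full.exc (by decide) Full.cover_ok b hb0
      (by simp [Full.exc]))
  rw [← insert_empty_eq, ← insert_empty_eq] at h1
  exact h1

end Vale.Agent.P062.Second
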